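import Mathlib
import Vale.Agent.H70.Lift
import Vale.Agent.H70.Data3
import Vale.Agent.H70.MergeDim
import Vale.Agent.H70.MergeFive
import Vale.Agent.H70.Transfer

/-!
# P262: two-sided bounds for signed prefix sums in Euclidean space, in one statement

Write `σ(d) ≤ C` for: every finite sequence in the unit ball of `ℝ^d` admits signs for which all
signed prefix sums have Euclidean norm at most `C`.

1. For every `d ≥ 3`: if `σ(d) ≤ C` then `C ≥ √(d + 34/25)`, that is `σ(d) ≥ √(d + 1.36)`.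
2. `σ(3) ≤ √6`.
3. `σ(4) ≤ √10`.
4. Every finite zero-sum sequence in the unit ball of `ℝ^4` can be rearranged so that all partial
   sums have Euclidean norm at most `√10`, that is `S_2(4) ≤ √10`.

So `√4.36 ≤ σ(3) ≤ √6` and `√5.36 ≤ σ(4) ≤ √10`.

Part 1 is proved by `d - 3` orthonormal vectors followed by an explicit sequence of 24 vectors in
the remaining three coordinates (a depth-first search over the signings, evaluated by the kernel
on integer data).  Parts 2 and 3 keep the vectors seen so far in clusters of norm at most one with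
deferred cluster signs and merge clusters whenever a signed sum of at least two of them has norm
at most one.  Part 4 follows from part 3 by Chobanyan's transference argument.
-/

namespace Vale.Agent.Results.P262.A0_TwoSidedBounds

open Finset

theorem sum_fin_prefix {E : Type*} [AddCommMonoid E] (f : ℕ → E) (N k : ℕ) (hk : k ≤ N) :
    (∑ i : Fin N, if (i : ℕ) < k then f i else 0) = ∑ j ∈ range k, f j := by
  rw [Fin.sum_univ_eq_sum_range (fun j => if j < k then f j else 0) N, ← Finset.sum_filter]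
  congr 1
  ext j
  simp only [Finset.mem_filter, Finset.mem_range]
  omega

/-- the forcing sequence of length `d + 21` in dimension `d ≥ 3` -/
theorem finite_form : ∀ d : ℕ, 3 ≤ d →
    ∃ v : Fin (d + 21) → EuclideanSpace ℝ (Fin d), (∀ i, ‖v i‖ ≤ 1) ∧
      ∀ ε : Fin (d + 21) → ℝ, (∀ i, ε i = 1 ∨ ε i = -1) →
        ∃ k : ℕ, k ≤ d + 21 ∧
          (d : ℝ) + 34 / 25 ≤
            ‖∑ i : Fin (d + 21), if (i : ℕ) < k then ε i • v i else 0‖ ^ 2 := by
  intro d hd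
  obtain ⟨n, rfl⟩ : ∃ n, d = n + 3 := ⟨d - 3, by omega⟩
  have hb : Orthonormal ℝ (fun j : Fin (n + 3) => EuclideanSpace.single j (1 : ℝ)) :=
    EuclideanSpace.orthonormal_single
  obtain ⟨hw, hf⟩ := Vale.Agent.H70.w3_forcing
  obtain ⟨hunit, hforce⟩ :=
    Vale.Agent.H70.lift_forcing n 3 24 (109 / 25) Vale.Agent.H70.w3 hw hf _ hb
  refine ⟨fun i => Vale.Agent.H70.lvec n 3 Vale.Agent.H70.w3 _ (i : ℕ), fun i => hunit i, ?_⟩
  intro ε hε
  obtain ⟨k, hk, hT⟩ := hforce (fun j => if h : j < n + 3 + 21 then ε ⟨j, h⟩ else 1) (by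
    intro j
    by_cases h : j < n + 3 + 21
    · simp only [h, dif_pos]; exact hε _
    · simp only [h, dif_neg, not_false_eq_true]; exact Or.inl trivial)
  refine ⟨k, by omega, ?_⟩
  have e : (∑ i : Fin (n + 3 + 21), if (i : ℕ) < k then
        ε i • Vale.Agent.H70.lvec n 3 Vale.Agent.H70.w3
          (fun j : Fin (n + 3) => EuclideanSpace.single j (1 : ℝ)) (i : ℕ) else 0)
      = ∑ j ∈ range k, (if h : j < n + 3 + 21 then ε ⟨j, h⟩ else 1) •
          Vale.Agent.H70.lvec n 3 Vale.Agent.H70.w3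
            (fun j : Fin (n + 3) => EuclideanSpace.single j (1 : ℝ)) j := by
    rw [← sum_fin_prefix _ (n + 3 + 21) k (by omega)]
    apply Finset.sum_congr rfl
    intro i _
    simp [i.isLt]
  rw [e]
  push_cast
  linarith

/-- from a bound for unmergeable families to signs for finite sequences -/
theorem signs_of_bound {E : Type*} [NormedAddCommGroup E] [InnerProductSpace ℝ E] (B : ℝ)
    (H : ∀ (J : Finset ℕ) (c : ℕ → E), (∀ j ∈ J, ‖c j‖ ≤ 1) →
      Vale.Agent.H70.Merge.Unmergeable J c →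
      ∀ θ : ℕ → ℝ, Vale.Agent.H70.Merge.IsSign θ → ‖∑ j ∈ J, θ j • c j‖ ^ 2 ≤ B)
    (N : ℕ) (v : Fin N → E) (hv : ∀ i, ‖v i‖ ≤ 1) :
    ∃ ε : Fin N → ℝ, (∀ i, ε i = 1 ∨ ε i = -1) ∧
      ∀ k : ℕ, k ≤ N →
        ‖∑ i : Fin N, if (i : ℕ) < k then ε i • v i else 0‖ ≤ Real.sqrt B := by
  -- extend the sequence by zero
  set w : ℕ → E := fun j => if h : j < N then v ⟨j, h⟩ else 0 with hw
  have hw1 : ∀ j, ‖w j‖ ≤ 1 := by
    intro j
    by_cases h : j < N
    · simp only [hw, h, dif_pos]; exact hv _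
    · simp [hw, h]
  obtain ⟨ε, hε, hb⟩ := Vale.Agent.H70.Merge.exists_signs B H w hw1 N
  refine ⟨fun i => ε i, fun i => hε i i.isLt, ?_⟩
  intro k hk
  have e : (∑ i : Fin N, if (i : ℕ) < k then ε i • v i else 0)
      = ∑ j ∈ range k, ε j • w j := by
    rw [← sum_fin_prefix (fun j => ε j • w j) N k hk]
    apply Finset.sum_congr rfl
    intro i _
    simp [hw, i.isLt]
  rw [e]
  exact Real.le_sqrt_of_sq_le (hb k hk)

theorem result :
    (∀ d : ℕ, 3 ≤ d → ∀ C : ℝ,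
      (∀ (N : ℕ) (v : Fin N → EuclideanSpace ℝ (Fin d)), (∀ i, ‖v i‖ ≤ 1) →
        ∃ ε : Fin N → ℝ, (∀ i, ε i = 1 ∨ ε i = -1) ∧
          ∀ k : ℕ, k ≤ N → ‖∑ i : Fin N, if (i : ℕ) < k then ε i • v i else 0‖ ≤ C) →
      Real.sqrt ((d : ℝ) + 34 / 25) ≤ C) ∧
    (∀ (N : ℕ) (v : Fin N → EuclideanSpace ℝ (Fin 3)), (∀ i, ‖v i‖ ≤ 1) →
      ∃ ε : Fin N → ℝ, (∀ i, ε i = 1 ∨ ε i = -1) ∧
        ∀ k : ℕ, k ≤ N →
          ‖∑ i : Fin N, if (i : ℕ) < k then ε i • v i else 0‖ ≤ Real.sqrt 6) ∧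
    (∀ (N : ℕ) (v : Fin N → EuclideanSpace ℝ (Fin 4)), (∀ i, ‖v i‖ ≤ 1) →
      ∃ ε : Fin N → ℝ, (∀ i, ε i = 1 ∨ ε i = -1) ∧
        ∀ k : ℕ, k ≤ N →
          ‖∑ i : Fin N, if (i : ℕ) < k then ε i • v i else 0‖ ≤ Real.sqrt 10) ∧
    (∀ (N : ℕ) (v : Fin N → EuclideanSpace ℝ (Fin 4)), (∀ i, ‖v i‖ ≤ 1) → ∑ i, v i = 0 →
      ∃ π : Equiv.Perm (Fin N),
        ∀ k : ℕ, k ≤ N →
          ‖∑ i : Fin N, if (i : ℕ) < k then v (π i) else 0‖ ≤ Real.sqrt 10) := by
  have h4 : ∀ (N : ℕ) (v : Fin N → EuclideanSpace ℝ (Fin 4)), (∀ i, ‖v i‖ ≤ 1) →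
      ∃ ε : Fin N → ℝ, (∀ i, ε i = 1 ∨ ε i = -1) ∧
        ∀ k : ℕ, k ≤ N →
          ‖∑ i : Fin N, if (i : ℕ) < k then ε i • v i else 0‖ ≤ Real.sqrt 10 := by
    intro N v hv
    have hfin : Module.finrank ℝ (EuclideanSpace ℝ (Fin 4)) ≤ 4 := by simp
    exact signs_of_bound (10 : ℝ) (fun J c hc hU θ hθ =>
      hU.sq_norm_le_ten hfin hc θ hθ) N v hv
  refine ⟨?_, ?_, h4, ?_⟩
  · intro d hd C hC
    obtain ⟨v, hv, hforce⟩ := finite_form d hd
    obtain ⟨ε, hε, hbound⟩ := hC (d + 21) v hv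
    obtain ⟨k, hk, hT⟩ := hforce ε hε
    have h1 := hbound k hk
    have h0 : 0 ≤ ‖∑ i : Fin (d + 21), if (i : ℕ) < k then ε i • v i else 0‖ := norm_nonneg _
    have hC0 : 0 ≤ C := le_trans h0 h1
    have hsq : (d : ℝ) + 34 / 25 ≤ C ^ 2 := le_trans hT (pow_le_pow_left₀ h0 h1 2)
    calc Real.sqrt ((d : ℝ) + 34 / 25) ≤ Real.sqrt (C ^ 2) := Real.sqrt_le_sqrt hsq
      _ = C := Real.sqrt_sq hC0
  · intro N v hv
    have hfin : Module.finrank ℝ (EuclideanSpace ℝ (Fin 3)) ≤ 3 := by simp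
    exact signs_of_bound (6 : ℝ) (fun J c hc hU θ hθ => by
      have := hU.sq_norm_le (r := 3) (by norm_num) (by norm_num) hfin hc θ hθ
      norm_num at this ⊢
      linarith) N v hv
  · intro N v hv hsum
    exact Vale.Agent.H70.Transfer.steinitz_of_signs (Real.sqrt 10) h4 N v hv hsum

end Vale.Agent.Results.P262.A0_TwoSidedBounds
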