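import Mathlib
import Vale.Agent.H70.Assemble

/-!
# P262: a lower bound for signed prefix sums in Euclidean space

For every dimension `d ≥ 2` and every `M` there are `d + M` unit vectors in `ℝ^d` such that
every choice of signs has a prefix sum of squared Euclidean norm at least `d + 1 - 2^(-M)`.
Hence `σ(d, d + M) ^ 2 ≥ d + 1 - 2^(-M)`, and every constant `C` that bounds all signed
prefix sums for a suitable signing of every finite sequence in the unit ball of `ℝ^d`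
satisfies `C ≥ √(d + 1)`, that is `σ(d) ≥ √(d + 1)`.
-/

namespace Vale.Agent.Results.P262.A_SigmaLowerBound

open Finset

theorem sum_fin_prefix {E : Type*} [AddCommMonoid E] (f : ℕ → E) (N k : ℕ) (hk : k ≤ N) :
    (∑ i : Fin N, if (i : ℕ) < k then f i else 0) = ∑ j ∈ range k, f j := by
  rw [Fin.sum_univ_eq_sum_range (fun j => if j < k then f j else 0) N, ← Finset.sum_filter]
  congr 1
  ext j
  simp only [Finset.mem_filter, Finset.mem_range]
  omega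

theorem finite_form : ∀ d : ℕ, 2 ≤ d → ∀ M : ℕ,
    ∃ v : Fin (d + M) → EuclideanSpace ℝ (Fin d), (∀ i, ‖v i‖ = 1) ∧
      ∀ ε : Fin (d + M) → ℝ, (∀ i, ε i = 1 ∨ ε i = -1) →
        ∃ k : ℕ, k ≤ d + M ∧
          (d : ℝ) + 1 - (1 / 2 : ℝ) ^ M ≤
            ‖∑ i : Fin (d + M), if (i : ℕ) < k then ε i • v i else 0‖ ^ 2 := by
  intro d hd M
  obtain ⟨n, rfl⟩ : ∃ n, d = n + 2 := ⟨d - 2, by omega⟩
  have hb : Orthonormal ℝ (fun j : Fin (n + 2) => EuclideanSpace.single j (1 : ℝ)) :=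
    EuclideanSpace.orthonormal_single
  obtain ⟨hunit, hforce⟩ := Vale.Agent.H70.forcing_nat n M _ hb
  refine ⟨fun i => Vale.Agent.H70.fvec n (3 - (1 / 2 : ℝ) ^ M) _ (i : ℕ),
    fun i => hunit i i.isLt, ?_⟩
  intro ε hε
  obtain ⟨k, hk, hT⟩ := hforce (fun j => if h : j < n + 2 + M then ε ⟨j, h⟩ else 1) (by
    intro j
    by_cases h : j < n + 2 + M
    · simp only [h, dif_pos]; exact hε _
    · simp only [h, dif_neg, not_false_eq_true]; exact Or.inl trivial)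
  refine ⟨k, hk, ?_⟩
  have e : (∑ i : Fin (n + 2 + M), if (i : ℕ) < k then
        ε i • Vale.Agent.H70.fvec n (3 - (1 / 2 : ℝ) ^ M)
          (fun j : Fin (n + 2) => EuclideanSpace.single j (1 : ℝ)) (i : ℕ) else 0)
      = ∑ j ∈ range k, (if h : j < n + 2 + M then ε ⟨j, h⟩ else 1) •
          Vale.Agent.H70.fvec n (3 - (1 / 2 : ℝ) ^ M)
            (fun j : Fin (n + 2) => EuclideanSpace.single j (1 : ℝ)) j := by
    rw [← sum_fin_prefix _ (n + 2 + M) k hk]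
    apply Finset.sum_congr rfl
    intro i _
    simp [i.isLt]
  rw [e]
  exact hT

theorem result :
    (∀ d : ℕ, 2 ≤ d → ∀ M : ℕ,
      ∃ v : Fin (d + M) → EuclideanSpace ℝ (Fin d), (∀ i, ‖v i‖ = 1) ∧
        ∀ ε : Fin (d + M) → ℝ, (∀ i, ε i = 1 ∨ ε i = -1) →
          ∃ k : ℕ, k ≤ d + M ∧
            (d : ℝ) + 1 - (1 / 2 : ℝ) ^ M ≤
              ‖∑ i : Fin (d + M), if (i : ℕ) < k then ε i • v i else 0‖ ^ 2) ∧
    (∀ d : ℕ, 2 ≤ d → ∀ C : ℝ,
      (∀ (N : ℕ) (v : Fin N → EuclideanSpace ℝ (Fin d)), (∀ i, ‖v i‖ ≤ 1) →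
        ∃ ε : Fin N → ℝ, (∀ i, ε i = 1 ∨ ε i = -1) ∧
          ∀ k : ℕ, k ≤ N → ‖∑ i : Fin N, if (i : ℕ) < k then ε i • v i else 0‖ ≤ C) →
      Real.sqrt ((d : ℝ) + 1) ≤ C) := by
  refine ⟨finite_form, ?_⟩
  intro d hd C hC
  -- every `M` gives `d + 1 - (1/2)^M ≤ C^2` and `0 ≤ C`
  have hM : ∀ M : ℕ, 0 ≤ C ∧ (d : ℝ) + 1 - (1 / 2 : ℝ) ^ M ≤ C ^ 2 := by
    intro M
    obtain ⟨v, hv, hforce⟩ := finite_form d hd M
    obtain ⟨ε, hε, hbound⟩ := hC (d + M) v (fun i => le_of_eq (hv i))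
    obtain ⟨k, hk, hT⟩ := hforce ε hε
    have h1 := hbound k hk
    have h0 : 0 ≤ ‖∑ i : Fin (d + M), if (i : ℕ) < k then ε i • v i else 0‖ := norm_nonneg _
    refine ⟨le_trans h0 h1, le_trans hT ?_⟩
    exact pow_le_pow_left₀ h0 h1 2
  have hC0 : 0 ≤ C := (hM 0).1
  have hsq : (d : ℝ) + 1 ≤ C ^ 2 := by
    by_contra hlt
    push Not at hlt
    obtain ⟨M, hMlt⟩ := exists_pow_lt_of_lt_one (sub_pos.mpr hlt) (by norm_num : (1 / 2 : ℝ) < 1)
    have := (hM M).2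
    linarith
  calc Real.sqrt ((d : ℝ) + 1) ≤ Real.sqrt (C ^ 2) := Real.sqrt_le_sqrt hsq
    _ = C := Real.sqrt_sq hC0

end Vale.Agent.Results.P262.A_SigmaLowerBound
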