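import Mathlib
import Vale.Agent.H70.Lift
import Vale.Agent.H70.Data3

/-!
# P262: signed prefix sums in dimension at least three are forced beyond `d + 1`

For every dimension `d ≥ 3` there are `d + 21` vectors in the unit ball of `ℝ^d` such that every
choice of signs has a prefix sum of squared Euclidean norm at least `d + 34/25 = d + 1.36`.
Hence `σ(d, d + 21) ^ 2 ≥ d + 1.36`, and every constant `C` that bounds all signed prefix sums
for a suitable signing of every finite sequence in the unit ball of `ℝ^d` satisfies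
`C ≥ √(d + 1.36)`, that is `σ(d) ≥ √(d + 1.36)` for all `d ≥ 3`.

The sequence is `d - 3` orthonormal vectors followed by an explicit sequence of 24 vectors in the
remaining three coordinates that forces squared norm `4.36 > 4`; the latter is checked by a
depth-first search over the signings, evaluated by the kernel on integer data.
-/

namespace Vale.Agent.Results.P262.B_ThreeDimGadget

open Finset

theorem sum_fin_prefix {E : Type*} [AddCommMonoid E] (f : ℕ → E) (N k : ℕ) (hk : k ≤ N) :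
    (∑ i : Fin N, if (i : ℕ) < k then f i else 0) = ∑ j ∈ range k, f j := by
  rw [Fin.sum_univ_eq_sum_range (fun j => if j < k then f j else 0) N, ← Finset.sum_filter]
  congr 1
  ext j
  simp only [Finset.mem_filter, Finset.mem_range]
  omega

theorem finite_form : ∀ d : ℕ, 3 ≤ d →
    ∃ v : Fin (d + 21) → EuclideanSpace ℝ (Fin d), (∀ i, ‖v i‖ ≤ 1) ∧
      ∀ ε : Fin (d + 21) → ℝ, (∀ i, ε i = 1 ∨ ε i = -1) →
        ∃ k : ℕ, k ≤ d + 21 ∧
          (d : ℝ) + 34 / 25 ≤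
            ‖∑ i : Fin (d + 21), if (i : ℕ) < k then ε i • v i else 0‖ ^ 2 := by
  intro d hd
  obtain ⟨n, rfl⟩ : ∃ n, d = n + 3 := ⟨d - 3, by omega⟩
  have hb : Orthonormal ℝ (fun j : Fin (n + 3) => EuclideanSpace.single j (1 : ℝ)) :=
    EuclideanSpace.orthonormal_single
  obtain ⟨hw, hf⟩ := Vale.Agent.H70.w3_forcing
  obtain ⟨hunit, hforce⟩ :=
    Vale.Agent.H70.lift_forcing n 3 24 (109 / 25) Vale.Agent.H70.w3 hw hf _ hb
  refine ⟨fun i => Vale.Agent.H70.lvec n 3 Vale.Agent.H70.w3 _ (i : ℕ), fun i => hunit i, ?_⟩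
  intro ε hε
  obtain ⟨k, hk, hT⟩ := hforce (fun j => if h : j < n + 3 + 21 then ε ⟨j, h⟩ else 1) (by
    intro j
    by_cases h : j < n + 3 + 21
    · simp only [h, dif_pos]; exact hε _
    · simp only [h, dif_neg, not_false_eq_true]; exact Or.inl trivial)
  refine ⟨k, by omega, ?_⟩
  have e : (∑ i : Fin (n + 3 + 21), if (i : ℕ) < k then
        ε i • Vale.Agent.H70.lvec n 3 Vale.Agent.H70.w3
          (fun j : Fin (n + 3) => EuclideanSpace.single j (1 : ℝ)) (i : ℕ) else 0)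
      = ∑ j ∈ range k, (if h : j < n + 3 + 21 then ε ⟨j, h⟩ else 1) •
          Vale.Agent.H70.lvec n 3 Vale.Agent.H70.w3
            (fun j : Fin (n + 3) => EuclideanSpace.single j (1 : ℝ)) j := by
    rw [← sum_fin_prefix _ (n + 3 + 21) k (by omega)]
    apply Finset.sum_congr rfl
    intro i _
    simp [i.isLt]
  rw [e]
  push_cast
  linarith

theorem result :
    (∀ d : ℕ, 3 ≤ d →
      ∃ v : Fin (d + 21) → EuclideanSpace ℝ (Fin d), (∀ i, ‖v i‖ ≤ 1) ∧
        ∀ ε : Fin (d + 21) → ℝ, (∀ i, ε i = 1 ∨ ε i = -1) →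
          ∃ k : ℕ, k ≤ d + 21 ∧
            (d : ℝ) + 34 / 25 ≤
              ‖∑ i : Fin (d + 21), if (i : ℕ) < k then ε i • v i else 0‖ ^ 2) ∧
    (∀ d : ℕ, 3 ≤ d → ∀ C : ℝ,
      (∀ (N : ℕ) (v : Fin N → EuclideanSpace ℝ (Fin d)), (∀ i, ‖v i‖ ≤ 1) →
        ∃ ε : Fin N → ℝ, (∀ i, ε i = 1 ∨ ε i = -1) ∧
          ∀ k : ℕ, k ≤ N → ‖∑ i : Fin N, if (i : ℕ) < k then ε i • v i else 0‖ ≤ C) →
      Real.sqrt ((d : ℝ) + 34 / 25) ≤ C) := by
  refine ⟨finite_form, ?_⟩
  intro d hd C hC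
  obtain ⟨v, hv, hforce⟩ := finite_form d hd
  obtain ⟨ε, hε, hbound⟩ := hC (d + 21) v hv
  obtain ⟨k, hk, hT⟩ := hforce ε hε
  have h1 := hbound k hk
  have h0 : 0 ≤ ‖∑ i : Fin (d + 21), if (i : ℕ) < k then ε i • v i else 0‖ := norm_nonneg _
  have hC0 : 0 ≤ C := le_trans h0 h1
  have hsq : (d : ℝ) + 34 / 25 ≤ C ^ 2 := le_trans hT (pow_le_pow_left₀ h0 h1 2)
  calc Real.sqrt ((d : ℝ) + 34 / 25) ≤ Real.sqrt (C ^ 2) := Real.sqrt_le_sqrt hsq
    _ = C := Real.sqrt_sq hC0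

end Vale.Agent.Results.P262.B_ThreeDimGadget
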