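import Mathlib
import Vale.Agent.H70.MergeDim
import Vale.Agent.H70.MergeFive
import Vale.Agent.H70.Transfer

/-!
# P262: signed partial sums in Euclidean spaces of dimension three and four

Every finite sequence in the unit ball of `ℝ^3` admits signs for which all signed partial
sums have Euclidean norm at most `√6`, and every finite sequence in the unit ball of `ℝ^4`
admits signs for which all signed partial sums have Euclidean norm at most `√10`.
Hence `σ(3) ≤ √6` and `σ(4) ≤ √10`.  Moreover every finite zero-sum sequence in the unit ball of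
`ℝ^4` can be rearranged so that all partial sums have Euclidean norm at most `√10`, that is
`S_2(4) ≤ √10 < 3.25 = 4 - 1 + 1/4`.

The proof keeps the vectors seen so far in clusters of norm at most one with deferred
cluster signs, and merges clusters whenever a signed sum of at least two of them has norm at
most one.  Four linearly dependent vectors of the unit ball can always be merged, and so can
five (by a rounding of the coefficients of the linear relation that is pairwise uncorrelated
and never leaves the pivot alone).  So in dimension `d ≤ 4` at most `d` clusters remain, and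
`m` pairwise unmergeable clusters have all signed sums of squared norm at most
`m (m + 1) / 2`.  The rearrangement statement follows from the sign statement by Chobanyan's
transference argument (`Vale.Agent.H70.Transfer.steinitz_of_signs`).
-/

namespace Vale.Agent.Results.P262.D_LowDimUpperBounds

open Finset

theorem sum_fin_range {E : Type*} [AddCommMonoid E] (f : ℕ → E) (N k : ℕ) (hk : k ≤ N) :
    (∑ i : Fin N, if (i : ℕ) < k then f i else 0) = ∑ j ∈ range k, f j := by
  rw [Fin.sum_univ_eq_sum_range (fun j => if j < k then f j else 0) N, ← Finset.sum_filter]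
  congr 1
  ext j
  simp only [Finset.mem_filter, Finset.mem_range]
  omega

/-- from a bound for unmergeable families to signs for finite sequences -/
theorem signs_of_bound {E : Type*} [NormedAddCommGroup E] [InnerProductSpace ℝ E] (B : ℝ)
    (H : ∀ (J : Finset ℕ) (c : ℕ → E), (∀ j ∈ J, ‖c j‖ ≤ 1) →
      Vale.Agent.H70.Merge.Unmergeable J c →
      ∀ θ : ℕ → ℝ, Vale.Agent.H70.Merge.IsSign θ → ‖∑ j ∈ J, θ j • c j‖ ^ 2 ≤ B)
    (N : ℕ) (v : Fin N → E) (hv : ∀ i, ‖v i‖ ≤ 1) :
    ∃ ε : Fin N → ℝ, (∀ i, ε i = 1 ∨ ε i = -1) ∧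
      ∀ k : ℕ, k ≤ N →
        ‖∑ i : Fin N, if (i : ℕ) < k then ε i • v i else 0‖ ≤ Real.sqrt B := by
  -- extend the sequence by zero
  set w : ℕ → E := fun j => if h : j < N then v ⟨j, h⟩ else 0 with hw
  have hw1 : ∀ j, ‖w j‖ ≤ 1 := by
    intro j
    by_cases h : j < N
    · simp only [hw, h, dif_pos]; exact hv _
    · simp [hw, h]
  obtain ⟨ε, hε, hb⟩ := Vale.Agent.H70.Merge.exists_signs B H w hw1 N
  refine ⟨fun i => ε i, fun i => hε i i.isLt, ?_⟩
  intro k hk
  have e : (∑ i : Fin N, if (i : ℕ) < k then ε i • v i else 0)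
      = ∑ j ∈ range k, ε j • w j := by
    rw [← sum_fin_range (fun j => ε j • w j) N k hk]
    apply Finset.sum_congr rfl
    intro i _
    simp [hw, i.isLt]
  rw [e]
  exact Real.le_sqrt_of_sq_le (hb k hk)

theorem result :
    (∀ (N : ℕ) (v : Fin N → EuclideanSpace ℝ (Fin 3)), (∀ i, ‖v i‖ ≤ 1) →
      ∃ ε : Fin N → ℝ, (∀ i, ε i = 1 ∨ ε i = -1) ∧
        ∀ k : ℕ, k ≤ N →
          ‖∑ i : Fin N, if (i : ℕ) < k then ε i • v i else 0‖ ≤ Real.sqrt 6) ∧
    (∀ (N : ℕ) (v : Fin N → EuclideanSpace ℝ (Fin 4)), (∀ i, ‖v i‖ ≤ 1) →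
      ∃ ε : Fin N → ℝ, (∀ i, ε i = 1 ∨ ε i = -1) ∧
        ∀ k : ℕ, k ≤ N →
          ‖∑ i : Fin N, if (i : ℕ) < k then ε i • v i else 0‖ ≤ Real.sqrt 10) ∧
    (∀ (N : ℕ) (v : Fin N → EuclideanSpace ℝ (Fin 4)), (∀ i, ‖v i‖ ≤ 1) → ∑ i, v i = 0 →
      ∃ π : Equiv.Perm (Fin N),
        ∀ k : ℕ, k ≤ N →
          ‖∑ i : Fin N, if (i : ℕ) < k then v (π i) else 0‖ ≤ Real.sqrt 10) := by
  have h4 : ∀ (N : ℕ) (v : Fin N → EuclideanSpace ℝ (Fin 4)), (∀ i, ‖v i‖ ≤ 1) →
      ∃ ε : Fin N → ℝ, (∀ i, ε i = 1 ∨ ε i = -1) ∧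
        ∀ k : ℕ, k ≤ N →
          ‖∑ i : Fin N, if (i : ℕ) < k then ε i • v i else 0‖ ≤ Real.sqrt 10 := by
    intro N v hv
    have hfin : Module.finrank ℝ (EuclideanSpace ℝ (Fin 4)) ≤ 4 := by simp
    exact signs_of_bound (10 : ℝ) (fun J c hc hU θ hθ =>
      hU.sq_norm_le_ten hfin hc θ hθ) N v hv
  refine ⟨?_, h4, ?_⟩
  · intro N v hv
    have hfin : Module.finrank ℝ (EuclideanSpace ℝ (Fin 3)) ≤ 3 := by simp
    exact signs_of_bound (6 : ℝ) (fun J c hc hU θ hθ => by
      have := hU.sq_norm_le (r := 3) (by norm_num) (by norm_num) hfin hc θ hθ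
      norm_num at this ⊢
      linarith) N v hv
  · intro N v hv hsum
    exact Vale.Agent.H70.Transfer.steinitz_of_signs (Real.sqrt 10) h4 N v hv hsum

end Vale.Agent.Results.P262.D_LowDimUpperBounds
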