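import Mathlib
import Vale.Agent.H70.MergeDim

/-!
# P262: signed partial sums in three-dimensional Euclidean space

Every finite sequence in the unit ball of `ℝ^3` admits signs for which all signed partial
sums have Euclidean norm at most `√6`.  Hence `σ(3) ≤ √6`.

The proof keeps the vectors seen so far in clusters of norm at most one with deferred
cluster signs, and merges clusters whenever a signed sum of at least two of them has norm at
most one.  Four linearly dependent unit-ball vectors can always be merged, so at most three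
clusters remain, and three pairwise unmergeable clusters have all signed sums of squared
norm less than six.
-/

namespace Vale.Agent.Results.P262.E_ThreeDimUpperBound

open Finset

theorem sum_fin_range {E : Type*} [AddCommMonoid E] (f : ℕ → E) (N k : ℕ) (hk : k ≤ N) :
    (∑ i : Fin N, if (i : ℕ) < k then f i else 0) = ∑ j ∈ range k, f j := by
  rw [Fin.sum_univ_eq_sum_range (fun j => if j < k then f j else 0) N, ← Finset.sum_filter]
  congr 1
  ext j
  simp only [Finset.mem_filter, Finset.mem_range]
  omega

theorem result :
    ∀ (N : ℕ) (v : Fin N → EuclideanSpace ℝ (Fin 3)), (∀ i, ‖v i‖ ≤ 1) →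
      ∃ ε : Fin N → ℝ, (∀ i, ε i = 1 ∨ ε i = -1) ∧
        ∀ k : ℕ, k ≤ N →
          ‖∑ i : Fin N, if (i : ℕ) < k then ε i • v i else 0‖ ≤ Real.sqrt 6 := by
  intro N v hv
  -- extend the sequence by zero
  set w : ℕ → EuclideanSpace ℝ (Fin 3) := fun j => if h : j < N then v ⟨j, h⟩ else 0 with hw
  have hw1 : ∀ j, ‖w j‖ ≤ 1 := by
    intro j
    by_cases h : j < N
    · simp only [hw, h, dif_pos]; exact hv _
    · simp [hw, h]
  have hfin : Module.finrank ℝ (EuclideanSpace ℝ (Fin 3)) ≤ 3 := by simp
  obtain ⟨ε, hε, hb⟩ := Vale.Agent.H70.Merge.exists_signs (6 : ℝ)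
    (fun J c hc hU θ hθ => by
      have := hU.sq_norm_le (r := 3) (by norm_num) (by norm_num) hfin hc θ hθ
      norm_num at this ⊢
      linarith) w hw1 N
  refine ⟨fun i => ε i, fun i => hε i i.isLt, ?_⟩
  intro k hk
  have e : (∑ i : Fin N, if (i : ℕ) < k then ε i • v i else 0)
      = ∑ j ∈ range k, ε j • w j := by
    rw [← sum_fin_range (fun j => ε j • w j) N k hk]
    apply Finset.sum_congr rfl
    intro i _
    simp [hw, i.isLt]
  rw [e]
  exact Real.le_sqrt_of_sq_le (hb k hk)

end Vale.Agent.Results.P262.E_ThreeDimUpperBound
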